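import Vale.Agent.P210Y57.Main2

open scoped Manifold ContDiff
open Bundle Vale.Agent.P210Y57

set_option maxSynthPendingDepth 3

/-- Gromov's conjecture on the Urysohn width in codimension two: for every `n ≥ 3` there is `C`
such that every connected complete smooth Riemannian `n`-manifold with scalar curvature at least
`1` maps to a complex of dimension at most `n - 2` with fibres of diameter at most `C`. -/
theorem Vale.Agent.Results.P210.AAAAAIntrinsic.result :
    ∀ n : ℕ, 3 ≤ n → ∃ C : ℝ,
    ∀ (E : Type) [NormedAddCommGroup E] [NormedSpace ℝ E] [FiniteDimensional ℝ E]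
      (M : Type) [TopologicalSpace M] [T2Space M] [ConnectedSpace M] [ChartedSpace E M]
      [RiemannianBundle (fun x : M => TangentSpace 𝓘(ℝ, E) x)] [IsManifold 𝓘(ℝ, E) ∞ M]
      [IsContMDiffRiemannianBundle 𝓘(ℝ, E) ∞ E (fun x : M => TangentSpace 𝓘(ℝ, E) x)],
      Module.finrank ℝ E = n → (∃ cov : Conn E M, IsLeviCivita cov) ∧
      ∀ cov : Conn E M, IsLeviCivita cov →
        ((∀ cov' : Conn E M, IsLeviCivita cov' → Rm cov' = Rm cov) ∧ Tensorial cov ∧
          FrameFree cov ∧ (MetricComplete E M ↔ GeodComplete cov)) ∧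
        (MetricComplete E M → (∀ p, 1 ≤ scal cov p) →
          (∃ (V : Type) (K : PreAbstractSimplicialComplex V)
            (f : M → Vale.Agent.P210.Realization K),
            (∀ s ∈ K.faces, s.card ≤ n - 2 + 1) ∧ Continuous f ∧
              ∀ y, diam E (f ⁻¹' {y}) ≤ ENNReal.ofReal C) ∧
          UW E M (n - 2) ≤ ENNReal.ofReal C) :=
  Vale.Agent.P210Y57.main2
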