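import Vale.Agent.P210Z57.Main

open scoped Manifold ContDiff
open Bundle Vale.Agent.P210Z57

set_option maxSynthPendingDepth 3

/-- Gromov's conjecture on the Urysohn width in codimension two: for every `n ≥ 3` there is `C`
such that every connected complete smooth Riemannian `n`-manifold with scalar curvature at least
`1` maps to a complex of dimension at most `n - 2` with fibres of diameter at most `C`. -/
theorem Vale.Agent.Results.P210.AAAAHopfRinow.result :
    ∀ n : ℕ, 3 ≤ n → ∃ C : ℝ,
      ∀ (E : Type) [NormedAddCommGroup E] [NormedSpace ℝ E] [FiniteDimensional ℝ E]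
        (M : Type) [TopologicalSpace M] [T2Space M] [ConnectedSpace M] [ChartedSpace E M]
        [RiemannianBundle (fun x : M => TangentSpace 𝓘(ℝ, E) x)] [IsManifold 𝓘(ℝ, E) ∞ M]
        [IsContMDiffRiemannianBundle 𝓘(ℝ, E) ∞ E (fun x : M => TangentSpace 𝓘(ℝ, E) x)],
        Module.finrank ℝ E = n → MetricComplete E M ∨ GeodComplete E M → ScalGE E M 1 →
        (∃ (V : Type) (K : PreAbstractSimplicialComplex V) (f : M → Vale.Agent.P210.Realization K),
          (∀ s ∈ K.faces, s.card ≤ n - 2 + 1) ∧ Continuous f ∧
            ∀ y, diam E (f ⁻¹' {y}) ≤ ENNReal.ofReal C) ∧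
        UW E M (n - 2) ≤ ENNReal.ofReal C :=
  Vale.Agent.P210Z57.main
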